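/-
R258 / block [S9a] (Lemma 9.1 = counting.tex `lem:finite-sparse-count`), file CovStep: one extraction of a cover subset.  Blueprint + proofs: helper261.
-/
import Claimed.Agent.R258.Pack016
import Claimed.Agent.R258.Pack019

set_option autoImplicit false

namespace Claimed.Agent.R258

open Finset
open scoped Pointwise

/-- the two other roles of a triple -/
theorem sc_two_others {l' i : Fin 4} (h : i ≠ l') :
    ∃ j k : Fin 4, j ≠ l' ∧ k ≠ l' ∧ i ≠ j ∧ i ≠ k ∧ j ≠ k := by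
  revert h
  revert l' i
  decide

namespace ScPar

variable {p : ScPar} {O : Finset ScOcc}

/-- one extraction -/
theorem sc_cover_step (h : p.Ok O) {sp : ℤ} (hsp : ∀ o ∈ O, o.1 ≤ sp) {i : Fin 4} (hi : i ∈ p.J)
    {κ : ℝ} (hκ0 : 0 < κ) (hκ1 : κ < 1) (hbig : κ * p.M ^ 2 < (O.card : ℝ)) :
    ∃ B0 ⊆ O.image (fun o => o.2 i), κ / p.L * p.M / 4 ≤ (B0.card : ℝ) ∧
      ∃ P : Finset ℤ, (P.card : ℝ) ≤ p.K1 κ * p.M ∧ B0 - B0 ⊆ P + p.U sp 2 := by
  classical
  obtain ⟨l', hl'i, hcore⟩ := sc_exists_excl h.hJ hi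
  have hil : i ≠ l' := hl'i.symm
  obtain ⟨j, k, hj, hk, hij, hik, hjk⟩ := sc_two_others hil
  have hjJ := hcore j hj
  have hkJ := hcore k hk
  have hL := h.hL
  have hL0 : 0 < p.L := by linarith
  have hM := h.hM
  set Ed := O.image fun o => (o.2 i, o.2 j) with hEd
  have hex : ∀ e ∈ Ed, ∃ o ∈ O, (o.2 i, o.2 j) = e := by
    intro e he
    obtain ⟨o, ho, rfl⟩ := Finset.mem_image.1 he
    exact ⟨o, ho, rfl⟩
  choose! rep hrep1 hrep2 using hex
  set col : ℤ × ℤ → ℤ := fun e => (rep e).2 k with hcol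
  have hmemEd : ∀ o ∈ O, (o.2 i, o.2 j) ∈ Ed := fun o ho => Finset.mem_image_of_mem _ ho
  have hcolo : ∀ o ∈ O, col (o.2 i, o.2 j) = o.2 k := by
    intro o ho
    have h1 := hrep1 _ (hmemEd o ho)
    have h2 := hrep2 _ (hmemEd o ho)
    have h3 := h.pair _ h1 o ho i hi j hjJ hij (congrArg Prod.fst h2) (congrArg Prod.snd h2)
    show (rep (o.2 i, o.2 j)).2 k = o.2 k
    rw [h3]
  have hover : ∀ x y, (x, y) ∈ Ed → ∃ o ∈ O, o.2 i = x ∧ o.2 j = y ∧ col (x, y) = o.2 k := by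
    intro x y hxy
    obtain ⟨o, ho, he⟩ := Finset.mem_image.1 hxy
    refine ⟨o, ho, congrArg Prod.fst he, congrArg Prod.snd he, ?_⟩
    rw [← he]
    exact hcolo o ho
  have hη0 : 0 < κ / p.L := div_pos hκ0 hL0
  have hη1 : κ / p.L ≤ 1 := by
    rw [div_le_one hL0]
    linarith
  have hOEd : (O.card : ℝ) ≤ p.L * Ed.card := by
    refine sc_card_le_fibre O Ed (fun o => (o.2 i, o.2 j)) hmemEd p.L ?_
    intro b _
    have := sc_pair_fibre h hi hjJ hij b.1 b.2
    simpa only [Prod.ext_iff] using this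
  have hcard : κ / p.L * p.M ^ 2 ≤ (Ed.card : ℝ) := by
    rw [div_mul_eq_mul_div, div_le_iff₀ hL0]
    linarith
  obtain ⟨B0, hB0, hB0card, P, hP, hcov⟩ := sc_extract (O.image fun o => o.2 i) (O.image fun o => o.2 j)
    (O.image fun o => o.2 k) Ed col (scQ l' i k) (p.U sp 1) (p.U sp 2) p.M (κ / p.L) hM hη0 hη1
    (h.card i hi) (h.card j hjJ) (h.card k hkJ)
    (by
      intro e he
      obtain ⟨o, ho, rfl⟩ := Finset.mem_image.1 he
      exact Finset.mem_product.2 ⟨Finset.mem_image_of_mem _ ho, Finset.mem_image_of_mem _ ho⟩)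
    hcard
    (by
      intro e he
      exact Finset.mem_image_of_mem (fun o : ScOcc => o.2 k) (hrep1 e he))
    (by
      intro x y y' h1 h2 hc
      obtain ⟨o, ho, e1, e2, e3⟩ := hover x y h1
      obtain ⟨o', ho', e1', e2', e3'⟩ := hover x y' h2
      have := h.pair o ho o' ho' i hi k hkJ hik (e1.trans e1'.symm) (by rw [← e3, ← e3', hc])
      rw [← e2, ← e2', this])
    (by
      intro x x' y h1 h2 hc
      obtain ⟨o, ho, e1, e2, e3⟩ := hover x y h1
      obtain ⟨o', ho', e1', e2', e3'⟩ := hover x' y h2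
      have := h.pair o ho o' ho' j hjJ k hkJ hjk (e2.trans e2'.symm) (by rw [← e3, ← e3', hc])
      rw [← e1, ← e1', this])
    (by
      intro a y1 z y2 a' h1 h2 h3 h4
      obtain ⟨o1, ho1, a1, b1, c1⟩ := hover _ _ h1
      obtain ⟨o2, ho2, a2, b2, c2⟩ := hover _ _ h2
      obtain ⟨o3, ho3, a3, b3, c3⟩ := hover _ _ h3
      obtain ⟨o4, ho4, a4, b4, c4⟩ := hover _ _ h4
      have := sc_path_rel h hsp hcore hil hj hk hij hik hjk ho1 ho2 ho3 ho4 (b1.trans b2.symm)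
        (a2.trans a3.symm) (b3.trans b4.symm)
      rw [c1, c2, c3, c4, ← a1, ← a4]
      exact this)
    (U_sub_subset sp 1 1) (zero_mem_U _ _) (fun _ hx => neg_mem_U hx)
  refine ⟨B0, hB0, hB0card, P, hP.trans ?_, hcov⟩
  unfold K1
  have h1 : (κ / p.L)⁻¹ = p.L / κ := inv_div _ _
  have h2 : 1 ≤ p.L / κ := by
    rw [le_div_iff₀ hκ0]
    linarith
  rw [h1]
  have h3 : (p.L / κ) ^ 5 ≤ (p.L / κ) ^ 6 := pow_le_pow_right₀ h2 (by norm_num)
  have hM0 : 0 ≤ p.M := by linarith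
  exact mul_le_mul_of_nonneg_right (by linarith) hM0

end ScPar

end Claimed.Agent.R258
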