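/-
R258 / block [S9a] (Lemma 9.1 = counting.tex `lem:finite-sparse-count`), file CovIter: the cover subsets of one block and one core role.  Blueprint + proofs: helper261.
-/
import Claimed.Agent.R258.S9a.CovStep

set_option autoImplicit false

namespace Claimed.Agent.R258

open Finset
open scoped Pointwise

namespace ScPar

variable {p : ScPar} {O : Finset ScOcc}

/-- the induction: `n` steps suffice when there are at most `n κ M/(4L)` labels -/
theorem sc_cover_aux (h : p.Ok O) {sp : ℤ} (hsp : ∀ o ∈ O, o.1 ≤ sp) {i : Fin 4} (hi : i ∈ p.J)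
    {κ : ℝ} (hκ0 : 0 < κ) (hκ1 : κ < 1) (n : ℕ) : ∀ O' ⊆ O,
    ((O'.image fun o => o.2 i).card : ℝ) ≤ n * (κ / p.L * p.M / 4) →
    ∃ 𝓑 : Finset (Finset ℤ), 𝓑.card ≤ n ∧
      (∀ Bs ∈ 𝓑, Bs ⊆ O.image (fun o => o.2 i) ∧
        ∃ P : Finset ℤ, (P.card : ℝ) ≤ p.K1 κ * p.M ∧ Bs - Bs ⊆ P + p.U sp 2) ∧
      ((O'.filter fun o => ∀ Bs ∈ 𝓑, o.2 i ∉ Bs).card : ℝ) ≤ κ * p.M ^ 2 := by
  have hM := h.hM
  have hκM : 0 ≤ κ * p.M ^ 2 := by positivity
  induction n with
  | zero =>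
    intro O' _ hcard
    refine ⟨∅, le_rfl, fun Bs hBs => absurd hBs (Finset.notMem_empty _), ?_⟩
    have h1 : (O'.image fun o => o.2 i).card = 0 := by
      have : ((O'.image fun o => o.2 i).card : ℝ) ≤ 0 := by simpa using hcard
      exact_mod_cast le_antisymm this (Nat.cast_nonneg _)
    have h2 : O' = ∅ := by
      rw [Finset.card_eq_zero, Finset.image_eq_empty] at h1
      exact h1
    rw [h2]
    simpa using hκM
  | succ n ih =>
    intro O' hO' hcard
    by_cases hbig : κ * p.M ^ 2 < (O'.card : ℝ)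
    · obtain ⟨B0, hB0, hB0card, P, hP, hcov⟩ :=
        sc_cover_step (h.mono hO') (fun o ho => hsp o (hO' ho)) hi hκ0 hκ1 hbig
      set O'' := O'.filter fun o => o.2 i ∉ B0 with hO''
      have hsub'' : O'' ⊆ O' := Finset.filter_subset _ _
      have hlab : (O''.image fun o => o.2 i) ⊆ (O'.image fun o => o.2 i) \ B0 := by
        intro x hx
        obtain ⟨o, ho, rfl⟩ := Finset.mem_image.1 hx
        obtain ⟨ho1, ho2⟩ := Finset.mem_filter.1 ho
        exact Finset.mem_sdiff.2 ⟨Finset.mem_image_of_mem _ ho1, ho2⟩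
      have hc1 := Finset.card_le_card hlab
      rw [Finset.card_sdiff_of_subset hB0] at hc1
      have hc2 : B0.card ≤ (O'.image fun o => o.2 i).card := Finset.card_le_card hB0
      have hc3 : ((O''.image fun o => o.2 i).card : ℝ) ≤
          ((O'.image fun o => o.2 i).card : ℝ) - (B0.card : ℝ) := by
        rw [← Nat.cast_sub hc2]
        exact_mod_cast hc1
      obtain ⟨𝓑, hn, hprop, hunc⟩ := ih O'' (hsub''.trans hO') (by
        push_cast at hcard
        linarith)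
      refine ⟨insert B0 𝓑, (Finset.card_insert_le _ _).trans (Nat.succ_le_succ hn), ?_, ?_⟩
      · intro Bs hBs
        rcases Finset.mem_insert.1 hBs with rfl | hBs
        · exact ⟨hB0.trans (Finset.image_subset_image hO'), P, hP, hcov⟩
        · exact hprop Bs hBs
      · refine le_trans ?_ hunc
        have hsubf : (O'.filter fun o => ∀ Bs ∈ insert B0 𝓑, o.2 i ∉ Bs) ⊆
            O''.filter fun o => ∀ Bs ∈ 𝓑, o.2 i ∉ Bs := by
          intro o ho
          obtain ⟨ho1, ho2⟩ := Finset.mem_filter.1 ho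
          exact Finset.mem_filter.2 ⟨Finset.mem_filter.2 ⟨ho1, ho2 B0 (Finset.mem_insert_self _ _)⟩,
            fun Bs hBs => ho2 Bs (Finset.mem_insert_of_mem hBs)⟩
        exact_mod_cast Finset.card_le_card hsubf
    · refine ⟨∅, Nat.zero_le _, fun Bs hBs => absurd hBs (Finset.notMem_empty _), ?_⟩
      refine le_trans ?_ (not_lt.1 hbig)
      exact_mod_cast Finset.card_le_card (Finset.filter_subset _ _)

/-- **the cover subsets of one block and one core role** -/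
theorem sc_cover (h : p.Ok O) {sp : ℤ} (hsp : ∀ o ∈ O, o.1 ≤ sp) {i : Fin 4} (hi : i ∈ p.J)
    {κ : ℝ} (hκ0 : 0 < κ) (hκ1 : κ < 1) :
    ∃ 𝓑 : Finset (Finset ℤ), (𝓑.card : ℝ) ≤ p.K1 κ ∧
      (∀ Bs ∈ 𝓑, Bs ⊆ O.image (fun o => o.2 i) ∧
        ∃ P : Finset ℤ, (P.card : ℝ) ≤ p.K1 κ * p.M ∧ Bs - Bs ⊆ P + p.U sp 2) ∧
      ((O.filter fun o => ∀ Bs ∈ 𝓑, o.2 i ∉ Bs).card : ℝ) ≤ κ * p.M ^ 2 := by
  have hM := h.hM
  have hL := h.hL
  have hL0 : 0 < p.L := by linarith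
  have hy : 1 ≤ p.L / κ := by
    rw [le_div_iff₀ hκ0]
    linarith
  obtain ⟨𝓑, hn, hprop, hunc⟩ := sc_cover_aux h hsp hi hκ0 hκ1 ⌈4 * (p.L / κ)⌉₊ O (Finset.Subset.refl _) (by
    refine (h.card i hi).trans ?_
    have h1 : 4 * (p.L / κ) ≤ (⌈4 * (p.L / κ)⌉₊ : ℝ) := Nat.le_ceil _
    have h2 : 0 ≤ κ / p.L * p.M / 4 := by positivity
    have h3 := mul_le_mul_of_nonneg_right h1 h2
    have h4 : 4 * (p.L / κ) * (κ / p.L * p.M / 4) = p.M := by
      field_simp
    linarith)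
  refine ⟨𝓑, ?_, hprop, hunc⟩
  have h1 : (𝓑.card : ℝ) ≤ (⌈4 * (p.L / κ)⌉₊ : ℝ) := by exact_mod_cast hn
  have h2 : (⌈4 * (p.L / κ)⌉₊ : ℝ) < 4 * (p.L / κ) + 1 := Nat.ceil_lt_add_one (by positivity)
  have h3 : p.L / κ ≤ (p.L / κ) ^ 6 := by
    calc p.L / κ = (p.L / κ) ^ 1 := (pow_one _).symm
      _ ≤ (p.L / κ) ^ 6 := pow_le_pow_right₀ hy (by norm_num)
  unfold K1
  linarith

end ScPar

end Claimed.Agent.R258
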