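/-
R258 / block [S9a] (Lemma 9.1), file Frame: the counting blocks with their cover subsets.  Blueprint: helper261.
`sc_frame_exists`:  `blk` from `sc_blocks O Prod.fst (δ M²) (α M²)`; `J0 = ⌊2 L/α⌋₊ + 1 ≤ 3 L/α` (`sc_total`, `α ≤ 1 ≤ L`).
For a block `b` put `O_b = O.filter (blk o.1 = b)`.  If `O_b = ∅`: `Cov b i = ∅`, `sp b = 0`.  Otherwise `sp b = (O_b.image Prod.fst).max' _` and, for `i ∈ J`,
`Cov b i` = the family of `sc_cover (h.mono _) ..` (`Classical.choose`); `Cov b i = ∅` for `i ∉ J`.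
-/
import Claimed.Agent.R258.S9a.CovIter
import Claimed.Agent.R258.Pack019

set_option autoImplicit false

namespace Claimed.Agent.R258

open Finset
open scoped Pointwise

/-- The counting blocks (index `blk s`; LATER blocks = larger index = smaller scales), their top scales and cover subsets. -/
structure ScFrame (p : ScPar) (O : Finset ScOcc) (α κ : ℝ) where
  /-- number of blocks -/
  J0 : ℕ
  /-- block of a scale -/
  blk : ℤ → ℕ
  /-- top scale of a block -/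
  sp : ℕ → ℤ
  /-- cover subsets -/
  Cov : ℕ → Fin 4 → Finset (Finset ℤ)
  J0_le : (J0 : ℝ) ≤ 3 * p.L / α
  blk_lt : ∀ o ∈ O, blk o.1 < J0
  blk_anti : ∀ s s' : ℤ, s ≤ s' → blk s' ≤ blk s
  mass : ∀ b : ℕ, ((O.filter fun o => blk o.1 = b).card : ℝ) ≤ α * p.M ^ 2
  sp_spec : ∀ b i, (Cov b i).Nonempty → ∃ o ∈ O, blk o.1 = b ∧ o.1 = sp b
  cov_card : ∀ b i, ((Cov b i).card : ℝ) ≤ p.K1 κ
  cov_sub : ∀ b i, ∀ Bs ∈ Cov b i, Bs ⊆ O.image fun o => o.2 i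
  cov_diff : ∀ b i, ∀ Bs ∈ Cov b i, ∃ P : Finset ℤ, (P.card : ℝ) ≤ p.K1 κ * p.M ∧
    Bs - Bs ⊆ P + p.U (sp b) 2
  unc : ∀ b : ℕ, ∀ i ∈ p.J,
    ((O.filter fun o => blk o.1 = b ∧ ∀ Bs ∈ Cov b i, o.2 i ∉ Bs).card : ℝ) ≤ κ * p.M ^ 2

namespace ScPar

variable {p : ScPar} {O : Finset ScOcc}

/-- the data of one block -/
theorem sc_frame_block (h : p.Ok O) {κ : ℝ} (hκ0 : 0 < κ) (hκ1 : κ < 1) (blk : ℤ → ℕ) (b : ℕ) :
    ∃ (s : ℤ) (C : Fin 4 → Finset (Finset ℤ)),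
      (∀ i, (C i).Nonempty → ∃ o ∈ O, blk o.1 = b ∧ o.1 = s) ∧
      (∀ i, ((C i).card : ℝ) ≤ p.K1 κ) ∧
      (∀ i, ∀ Bs ∈ C i, Bs ⊆ O.image fun o => o.2 i) ∧
      (∀ i, ∀ Bs ∈ C i, ∃ P : Finset ℤ, (P.card : ℝ) ≤ p.K1 κ * p.M ∧ Bs - Bs ⊆ P + p.U s 2) ∧
      ∀ i ∈ p.J, ((O.filter fun o => blk o.1 = b ∧ ∀ Bs ∈ C i, o.2 i ∉ Bs).card : ℝ) ≤ κ * p.M ^ 2 := by
  have hM := h.hM
  have hL := h.hL
  have hκM : 0 ≤ κ * p.M ^ 2 := by positivity
  have hK1 : 0 ≤ p.K1 κ := by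
    unfold K1
    positivity
  set Ob := O.filter fun o => blk o.1 = b with hOb
  have hsubOb : Ob ⊆ O := Finset.filter_subset _ _
  rcases Ob.eq_empty_or_nonempty with he | hne
  · refine ⟨0, fun _ => ∅, ?_, ?_, ?_, ?_, ?_⟩
    · intro i hi
      exact absurd hi Finset.not_nonempty_empty
    · intro i
      simpa using hK1
    · intro i Bs hBs
      exact absurd hBs (Finset.notMem_empty _)
    · intro i Bs hBs
      exact absurd hBs (Finset.notMem_empty _)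
    · intro i _
      have : (O.filter fun o => blk o.1 = b ∧ ∀ Bs ∈ (∅ : Finset (Finset ℤ)), o.2 i ∉ Bs) = ∅ := by
        rw [← Finset.filter_filter, ← hOb, he, Finset.filter_empty]
      rw [this]
      simpa using hκM
  · have hne' : (Ob.image Prod.fst).Nonempty := hne.image _
    set s := (Ob.image Prod.fst).max' hne' with hs
    have hsp : ∀ o ∈ Ob, o.1 ≤ s := fun o ho => Finset.le_max' _ _ (Finset.mem_image_of_mem _ ho)
    obtain ⟨o0, ho0, ho0s⟩ := Finset.mem_image.1 (Finset.max'_mem _ hne')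
    have hex : ∀ i, ∃ 𝓑 : Finset (Finset ℤ), (𝓑.card : ℝ) ≤ p.K1 κ ∧
        (∀ Bs ∈ 𝓑, Bs ⊆ Ob.image (fun o => o.2 i) ∧
          ∃ P : Finset ℤ, (P.card : ℝ) ≤ p.K1 κ * p.M ∧ Bs - Bs ⊆ P + p.U s 2) ∧
        (i ∈ p.J → ((Ob.filter fun o => ∀ Bs ∈ 𝓑, o.2 i ∉ Bs).card : ℝ) ≤ κ * p.M ^ 2) := by
      intro i
      by_cases hi : i ∈ p.J
      · obtain ⟨𝓑, h1, h2, h3⟩ := sc_cover (h.mono hsubOb) hsp hi hκ0 hκ1
        exact ⟨𝓑, h1, h2, fun _ => h3⟩
      · exact ⟨∅, by simpa using hK1, fun Bs hBs => absurd hBs (Finset.notMem_empty _),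
          fun hi' => absurd hi' hi⟩
    choose C hC1 hC2 hC3 using hex
    refine ⟨s, C, ?_, hC1, ?_, ?_, ?_⟩
    · intro i _
      exact ⟨o0, hsubOb ho0, (Finset.mem_filter.1 ho0).2, ho0s⟩
    · intro i Bs hBs
      exact (hC2 i Bs hBs).1.trans (Finset.image_subset_image hsubOb)
    · intro i Bs hBs
      exact (hC2 i Bs hBs).2
    · intro i hi
      rw [← Finset.filter_filter]
      exact hC3 i hi

theorem sc_frame_exists (h : p.Ok O) {δ α κ : ℝ} (hbin : p.Bin O δ) (hδ : 0 < δ) (hα : 2 * δ ≤ α)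
    (hα1 : α ≤ 1) (hκ0 : 0 < κ) (hκ1 : κ < 1) : Nonempty (ScFrame p O α κ) := by
  have hM := h.hM
  have hL := h.hL
  have hα0 : 0 < α := by linarith
  have hM2 : 0 < p.M ^ 2 := by positivity
  obtain ⟨blk, hanti, hle, hmass⟩ := sc_blocks O Prod.fst (δ * p.M ^ 2) (α * p.M ^ 2) (by positivity)
    (by nlinarith) hbin
  choose sp Cov h1 h2 h3 h4 h5 using sc_frame_block h hκ0 hκ1 blk
  have hLα : 1 ≤ p.L / α := by
    rw [le_div_iff₀ hα0]
    linarith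
  refine ⟨{
    J0 := ⌊2 * (p.L / α)⌋₊ + 1
    blk := blk
    sp := sp
    Cov := Cov
    J0_le := ?_
    blk_lt := ?_
    blk_anti := hanti
    mass := hmass
    sp_spec := h1
    cov_card := h2
    cov_sub := h3
    cov_diff := h4
    unc := h5 }⟩
  · have := Nat.floor_le (show 0 ≤ 2 * (p.L / α) by positivity)
    push_cast
    have h6 : 3 * p.L / α = 3 * (p.L / α) := by ring
    rw [h6]
    linarith
  · intro o _
    have h6 := hle o.1
    have h7 := sc_total h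
    have h8 : 2 * (O.card : ℝ) / (α * p.M ^ 2) ≤ 2 * (p.L / α) := by
      rw [div_le_iff₀ (by positivity)]
      have : 2 * (p.L / α) * (α * p.M ^ 2) = 2 * (p.L * p.M ^ 2) := by
        field_simp
      rw [this]
      linarith
    exact Nat.lt_succ_of_le (Nat.le_floor (h6.trans h8))

end ScPar

namespace ScFrame

variable {p : ScPar} {O : Finset ScOcc} {α κ : ℝ} (Fr : ScFrame p O α κ)

/-- the occurrence has an own-block covered label in every core role -/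
def own (o : ScOcc) : Prop := ∀ i ∈ p.J, ∃ Bs ∈ Fr.Cov (Fr.blk o.1) i, o.2 i ∈ Bs

/-- the role `i` of the occurrence is FUTURE -/
def fut (o : ScOcc) (i : Fin 4) : Prop := ∃ b', Fr.blk o.1 < b' ∧ ∃ Bs ∈ Fr.Cov b' i, o.2 i ∈ Bs

/-- the top scale of a later nonempty cover lies below the occurrence -/
theorem sp_lt {o : ScOcc} {b' : ℕ} {i : Fin 4} (hb : Fr.blk o.1 < b') (hne : (Fr.Cov b' i).Nonempty) :
    Fr.sp b' < o.1 := by
  obtain ⟨o', -, h1, h2⟩ := Fr.sp_spec b' i hne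
  by_contra hcon
  have h3 : o.1 ≤ o'.1 := by rw [h2]; exact not_lt.1 hcon
  have h4 := Fr.blk_anti _ _ h3
  omega

theorem lt_J0 {b' : ℕ} {i : Fin 4} (hne : (Fr.Cov b' i).Nonempty) : b' < Fr.J0 := by
  obtain ⟨o', ho', h1, -⟩ := Fr.sp_spec b' i hne
  rw [← h1]
  exact Fr.blk_lt o' ho'

theorem fine_sp (h : p.Ok O) {b' : ℕ} {i : Fin 4} (hne : (Fr.Cov b' i).Nonempty) : 1 ≤ p.R (Fr.sp b') := by
  obtain ⟨o', ho', -, h2⟩ := Fr.sp_spec b' i hne
  rw [← h2]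
  exact h.fine o' ho'

end ScFrame

end Claimed.Agent.R258
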