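/-
R258 / block [S9a] (Lemma 9.1 = counting.tex `lem:finite-sparse-count`), file Growth: polynomial growth of the neighbourhoods and the small-growth scale.  Blueprint: helper261.
RULES: fill the `sorry`s IN PLACE (auxiliary lemmas above, prefix `sc_`); statements change only via helper261.  No paper reading needed.

LEAF P-S9a-growth `sc_U_card_le`, `sc_growth`.
 `sc_U_card_le`: `n k = N₀ * (n k / N₀) + n k % N₀` (if `N₀ = 0` or `ε = 0` the interval is a point), so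
   `U sp t ⊆ (centres) + U sp 1`, centres `= image of [-t,t]^d × [-t,t]` under `(m, m₀) ↦ 6 N₀ dot m + ε m₀`; `Finset.card_add_le`, `card_image_le`.
 `sc_growth`: otherwise `#U(2j+1) > 2^j #U(1)` for all `2j-1 ≤ 100 D`; with `j ≥ 49 D` (`D = (d+1)² ≥ 1`):
   `2^(49 D) ≤ (2 (100 D + 2) + 1)^(d+1) ≤ (205 D)^(d+1)`, false since `2^(49 (d+1)) > 205 (d+1)²`.
-/
import Claimed.Agent.R258.Pack016

set_option autoImplicit false

namespace Claimed.Agent.R258

open Finset
open scoped Pointwise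

namespace ScPar

variable {p : ScPar}

/-- division with remainder in a symmetric interval -/
theorem sc_divmod (A t : ℕ) (n : ℤ) (h : |n| ≤ ((t * A : ℕ) : ℤ)) :
    ∃ m r : ℤ, n = A * m + r ∧ |m| ≤ (t : ℤ) ∧ |r| ≤ ((1 * A : ℕ) : ℤ) := by
  rcases Nat.eq_zero_or_pos A with rfl | hA
  · refine ⟨0, 0, ?_, by simp, by simp⟩
    simp only [mul_zero, Nat.cast_zero] at h
    have := abs_nonpos_iff.1 h
    simp [this]
  · have hA' : (0 : ℤ) < A := by exact_mod_cast hA
    rw [abs_le] at h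
    push_cast at h
    refine ⟨n / A, n % A, (Int.mul_ediv_add_emod n A).symm, ?_, ?_⟩
    · rw [abs_le]
      constructor
      · rw [Int.le_ediv_iff_mul_le hA']
        linarith [h.1]
      · exact Int.ediv_le_of_le_mul hA' h.2
    · rw [abs_le]
      have h1 := Int.emod_nonneg n hA'.ne'
      have h2 := Int.emod_lt_of_pos n hA'
      push_cast
      constructor <;> linarith

/-- polynomial growth -/
theorem sc_U_card_le (sp : ℤ) (t : ℕ) : (p.U sp t).card ≤ (2 * t + 1) ^ (p.d + 1) * (p.U sp 1).card := by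
  classical
  obtain ⟨Ce, hCe⟩ : ∃ Ce : Finset ℤ, Ce = ((Fintype.piFinset fun _ : Fin p.d => Finset.Icc (-(t : ℤ)) (t : ℤ)) ×ˢ
      Finset.Icc (-(t : ℤ)) (t : ℤ)).image fun z => 6 * (p.N0 : ℤ) * p.dot z.1 + (p.eps sp : ℤ) * z.2 :=
    ⟨_, rfl⟩
  have hIcc : (Finset.Icc (-(t : ℤ)) (t : ℤ)).card = 2 * t + 1 := by
    rw [Int.card_Icc]
    omega
  have hCecard : Ce.card ≤ (2 * t + 1) ^ (p.d + 1) := by
    rw [hCe]
    refine Finset.card_image_le.trans ?_
    rw [Finset.card_product, Fintype.card_piFinset, hIcc, Finset.prod_const, Finset.card_univ,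
      Fintype.card_fin, pow_succ]
  have hsub : p.U sp t ⊆ Ce + p.U sp 1 := by
    intro x hx
    rw [mem_U] at hx
    obtain ⟨n, hn, hu⟩ := hx
    have h1 : ∀ k, ∃ m r : ℤ, n k = p.N0 * m + r ∧ |m| ≤ (t : ℤ) ∧ |r| ≤ ((1 * p.N0 : ℕ) : ℤ) :=
      fun k => sc_divmod p.N0 t (n k) (hn k)
    choose m r hnk hm hr using h1
    obtain ⟨m0, r0, hu0, hm0, hr0⟩ := sc_divmod (p.eps sp) t _ hu
    refine Finset.mem_add.2 ⟨6 * (p.N0 : ℤ) * p.dot m + (p.eps sp : ℤ) * m0, ?_, 6 * p.dot r + r0, ?_, ?_⟩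
    · rw [hCe]
      refine Finset.mem_image.2 ⟨(m, m0), ?_, rfl⟩
      rw [Finset.mem_product, Fintype.mem_piFinset]
      exact ⟨fun k => Finset.mem_Icc.2 (abs_le.1 (hm k)), Finset.mem_Icc.2 (abs_le.1 hm0)⟩
    · rw [mem_U]
      refine ⟨r, hr, ?_⟩
      have : 6 * p.dot r + r0 - 6 * p.dot r = r0 := by ring
      rw [this]
      exact hr0
    · have hdot : p.dot n = (p.N0 : ℤ) * p.dot m + p.dot r := by
        have : n = (p.N0 : ℤ) • m + r := by
          funext k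
          simp only [Pi.add_apply, Pi.smul_apply, smul_eq_mul]
          exact hnk k
        rw [this, dot_add, dot_smul]
      have hx : x = 6 * p.dot n + ((p.eps sp : ℤ) * m0 + r0) := by
        rw [← hu0]
        ring
      rw [hx, hdot]
      ring
  calc (p.U sp t).card ≤ (Ce + p.U sp 1).card := Finset.card_le_card hsub
    _ ≤ Ce.card * (p.U sp 1).card := Finset.card_add_le
    _ ≤ (2 * t + 1) ^ (p.d + 1) * (p.U sp 1).card := Nat.mul_le_mul_right _ hCecard

/-- **a small-growth scale** -/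
theorem sc_growth (sp : ℤ) : ∃ H : ℕ, 1 ≤ H ∧ (H : ℝ) ≤ 100 * p.D ∧
    (p.U sp (H + 2)).card ≤ 2 * (p.U sp H).card := by
  by_contra hno
  push Not at hno
  obtain ⟨e, he⟩ : ∃ e : ℕ, e = p.d + 1 := ⟨_, rfl⟩
  have he1 : 1 ≤ e := by omega
  have hD : p.D = ((e ^ 2 : ℕ) : ℝ) := by
    unfold ScPar.D
    rw [he]
    push_cast
    ring
  have hstep : ∀ H : ℕ, 1 ≤ H → H ≤ 100 * e ^ 2 → 2 * (p.U sp H).card < (p.U sp (H + 2)).card := by
    intro H h1 h2
    refine hno H h1 ?_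
    rw [hD]
    exact_mod_cast h2
  have hind : ∀ j : ℕ, j ≤ 50 * e ^ 2 → 2 ^ j * (p.U sp 1).card ≤ (p.U sp (2 * j + 1)).card := by
    intro j
    induction j with
    | zero => intro _; simp
    | succ j ih =>
      intro hj
      have h1 := ih (by omega)
      have h2 := hstep (2 * j + 1) (by omega) (by omega)
      have e1 : 2 * (j + 1) + 1 = 2 * j + 1 + 2 := by ring
      rw [e1, pow_succ]
      calc 2 ^ j * 2 * (p.U sp 1).card = 2 * (2 ^ j * (p.U sp 1).card) := by ring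
        _ ≤ 2 * (p.U sp (2 * j + 1)).card := Nat.mul_le_mul_left _ h1
        _ ≤ (p.U sp (2 * j + 1 + 2)).card := h2.le
  have h1 := hind (50 * e ^ 2) le_rfl
  have h2 := sc_U_card_le (p := p) sp (2 * (50 * e ^ 2) + 1)
  rw [← he] at h2
  have hU1 : 0 < (p.U sp 1).card := Finset.card_pos.2 ⟨0, zero_mem_U sp 1⟩
  have h3 : 2 ^ (50 * e ^ 2) ≤ (2 * (2 * (50 * e ^ 2) + 1) + 1) ^ e :=
    Nat.le_of_mul_le_mul_right (h1.trans h2) hU1
  have h4 : 2 * (2 * (50 * e ^ 2) + 1) + 1 < 2 ^ (50 * e) := by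
    have h5 : 25 * e < 2 ^ (25 * e) := Nat.lt_two_pow_self
    have h6 : (25 * e) ^ 2 < (2 ^ (25 * e)) ^ 2 := Nat.pow_lt_pow_left h5 (by norm_num)
    have h7 : (2 ^ (25 * e)) ^ 2 = 2 ^ (50 * e) := by
      rw [← pow_mul]
      congr 1
      ring
    rw [h7] at h6
    have h8 : 1 ≤ e ^ 2 := Nat.one_le_pow _ _ he1
    have h9 : (25 * e) ^ 2 = 625 * e ^ 2 := by ring
    omega
  have h5 : (2 * (2 * (50 * e ^ 2) + 1) + 1) ^ e < (2 ^ (50 * e)) ^ e :=
    Nat.pow_lt_pow_left h4 (by omega)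
  have h6 : (2 ^ (50 * e)) ^ e = 2 ^ (50 * e ^ 2) := by
    rw [← pow_mul]
    congr 1
    ring
  rw [h6] at h5
  omega

end ScPar

end Claimed.Agent.R258
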