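/-
R258 / block [S9a] (Lemma 9.1 = counting.tex `lem:finite-sparse-count`), file BookFut: the occurrences with three future roles are covered by the combinations.  Blueprint + proofs: helper261.
-/
import Claimed.Agent.R258.Pack010

set_option autoImplicit false

namespace Claimed.Agent.R258

open Finset
open scoped Pointwise

variable {p : ScPar} {O : Finset ScOcc} {α κ δ : ℝ}

theorem sc_K1_ge_one (h : p.Ok O) (hκ0 : 0 < κ) (hκ1 : κ < 1) : 1 ≤ p.K1 κ := by
  unfold ScPar.K1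
  have h1 : 1 ≤ p.L / κ := by
    rw [le_div_iff₀ hκ0]
    linarith [h.hL]
  have h2 : 1 ≤ (p.L / κ) ^ 6 := one_le_pow₀ h1
  linarith

open Classical in
/-- a valid choice of a current block, an excluded role and three future cover subsets is a combination -/
theorem sc_comb_of_frame (h : p.Ok O) (hbin : p.Bin O δ) (hδ0 : 0 < δ) (hδ1 : δ ≤ 1) (hκ0 : 0 < κ)
    (hκ1 : κ < 1) (Fr : ScFrame p O α κ) (b : ℕ) (l' : Fin 4) (c : Fin 4 → ℕ × Finset ℤ)
    (hcore : ∀ i, i ≠ l' → i ∈ p.J)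
    (hc : ∀ i, i ≠ l' → b < (c i).1 ∧ (c i).2 ∈ Fr.Cov (c i).1 i) :
    ScComb p (O.filter fun o => Fr.blk o.1 = b ∧ ∀ i, i ≠ l' → o.2 i ∈ (c i).2) l' (p.K1 κ) δ
      (fun i => (c i).2) (fun i => Fr.sp (c i).1) where
  ok := h.mono (Finset.filter_subset _ _)
  core := hcore
  bin := hbin.mono (Finset.filter_subset _ _)
  hδ0 := hδ0
  hδ1 := hδ1
  hK := sc_K1_ge_one h hκ0 hκ1
  mem := fun o ho i hi => (Finset.mem_filter.1 ho).2.2 i hi
  below := fun o ho i hi => by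
    have hb := (Finset.mem_filter.1 ho).2.1
    exact Fr.sp_lt (o := o) (i := i) (by rw [hb]; exact (hc i hi).1) ⟨_, (hc i hi).2⟩
  fine := fun i hi => Fr.fine_sp h (i := i) ⟨_, (hc i hi).2⟩
  cover := fun i hi => Fr.cov_diff _ i _ (hc i hi).2

/-- all the cover subsets of a role, with their blocks -/
noncomputable def ScFrame.allCov (Fr : ScFrame p O α κ) (i : Fin 4) : Finset (ℕ × Finset ℤ) :=
  (range Fr.J0).biUnion fun b' => (Fr.Cov b' i).image fun Bs => (b', Bs)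

theorem sc_allCov_card (Fr : ScFrame p O α κ) (i : Fin 4) :
    ((Fr.allCov i).card : ℝ) ≤ Fr.J0 * p.K1 κ := by
  unfold ScFrame.allCov
  have h1 : ((range Fr.J0).biUnion fun b' => (Fr.Cov b' i).image fun Bs => (b', Bs)).card ≤
      ∑ b' ∈ range Fr.J0, (Fr.Cov b' i).card :=
    Finset.card_biUnion_le.trans (Finset.sum_le_sum fun b' _ => Finset.card_image_le)
  have h2 : (((range Fr.J0).biUnion fun b' => (Fr.Cov b' i).image fun Bs => (b', Bs)).card : ℝ) ≤
      ∑ b' ∈ range Fr.J0, ((Fr.Cov b' i).card : ℝ) := by exact_mod_cast h1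
  refine h2.trans ((Finset.sum_le_sum fun b' _ => Fr.cov_card b' i).trans (le_of_eq ?_))
  rw [Finset.sum_const, Finset.card_range, nsmul_eq_mul]

theorem sc_mem_allCov (Fr : ScFrame p O α κ) {i : Fin 4} {z : ℕ × Finset ℤ} (hz : z.2 ∈ Fr.Cov z.1 i) :
    z ∈ Fr.allCov i := by
  unfold ScFrame.allCov
  exact Finset.mem_biUnion.2 ⟨z.1, Finset.mem_range.2 (Fr.lt_J0 (i := i) ⟨_, hz⟩),
    Finset.mem_image.2 ⟨z.2, hz, rfl⟩⟩

/-- the choices of three cover subsets -/
noncomputable def ScFrame.choices (Fr : ScFrame p O α κ) (l' : Fin 4) : Finset (Fin 4 → ℕ × Finset ℤ) :=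
  Fintype.piFinset fun i => if i = l' then {(0, ∅)} else Fr.allCov i

theorem sc_choices_card (Fr : ScFrame p O α κ) (l' : Fin 4) :
    ((Fr.choices l').card : ℝ) ≤ (Fr.J0 * p.K1 κ) ^ 3 := by
  unfold ScFrame.choices
  rw [Fintype.card_piFinset]
  push_cast
  rw [← Finset.mul_prod_erase Finset.univ _ (Finset.mem_univ l'), if_pos rfl, Finset.card_singleton,
    Nat.cast_one, one_mul]
  have hcard : (Finset.univ.erase l').card = 3 := by
    rw [Finset.card_erase_of_mem (Finset.mem_univ _)]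
    simp
  calc ∏ i ∈ Finset.univ.erase l', (((if i = l' then {(0, ∅)} else Fr.allCov i : Finset _).card : ℕ) : ℝ)
      ≤ ∏ _i ∈ Finset.univ.erase l', (Fr.J0 * p.K1 κ) := by
        refine Finset.prod_le_prod (fun i _ => Nat.cast_nonneg _) fun i hi => ?_
        rw [if_neg (Finset.ne_of_mem_erase hi)]
        exact sc_allCov_card Fr i
    _ = (Fr.J0 * p.K1 κ) ^ 3 := by rw [Finset.prod_const, hcard]

open Classical in
/-- **the occurrences with three future roles** -/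
theorem sc_book_fut (h : p.Ok O) (hbin : p.Bin O δ) (hδ0 : 0 < δ) (hδ1 : δ ≤ 1) (hκ0 : 0 < κ)
    (hκ1 : κ < 1) (Fr : ScFrame p O α κ) (Kb : ℝ) (hKb0 : 0 ≤ Kb)
    (hKb : ∀ (O' : Finset ScOcc) (l' : Fin 4) (Bs : Fin 4 → Finset ℤ) (sp : Fin 4 → ℤ),
      ScComb p O' l' (p.K1 κ) δ Bs sp → (O'.card : ℝ) ≤ Kb) :
    ((O.filter fun o => Fr.fut3 o).card : ℝ) ≤ 4 * Fr.J0 * (Fr.J0 * p.K1 κ) ^ 3 * Kb := by
  set A : Fin 4 → ℕ → (Fin 4 → ℕ × Finset ℤ) → Finset ScOcc := fun l' b c =>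
    if (∀ i, i ≠ l' → i ∈ p.J) ∧ (∀ i, i ≠ l' → b < (c i).1 ∧ (c i).2 ∈ Fr.Cov (c i).1 i) then
      O.filter fun o => Fr.blk o.1 = b ∧ ∀ i, i ≠ l' → o.2 i ∈ (c i).2
    else ∅ with hA
  have hAcard : ∀ l' b c, ((A l' b c).card : ℝ) ≤ Kb := by
    intro l' b c
    rw [hA]
    simp only
    split_ifs with hv
    · exact hKb _ l' _ _ (sc_comb_of_frame h hbin hδ0 hδ1 hκ0 hκ1 Fr b l' c hv.1 hv.2)
    · rw [Finset.card_empty, Nat.cast_zero]
      exact hKb0
  have hsub : (O.filter fun o => Fr.fut3 o) ⊆ (Finset.univ : Finset (Fin 4)).biUnion fun l' =>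
      (range Fr.J0).biUnion fun b => (Fr.choices l').biUnion fun c => A l' b c := by
    intro o ho
    obtain ⟨hoO, l', hl'⟩ := Finset.mem_filter.1 ho
    have hex : ∀ i, ∃ z : ℕ × Finset ℤ, (i = l' → z = (0, ∅)) ∧
        (i ≠ l' → Fr.blk o.1 < z.1 ∧ z.2 ∈ Fr.Cov z.1 i ∧ o.2 i ∈ z.2) := by
      intro i
      by_cases hi : i = l'
      · exact ⟨(0, ∅), fun _ => rfl, fun hne => absurd hi hne⟩
      · obtain ⟨b', hb', Bs, hBs, hx⟩ := (hl' i hi).2
        exact ⟨(b', Bs), fun he => absurd he hi, fun _ => ⟨hb', hBs, hx⟩⟩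
    choose c hc1 hc2 using hex
    refine Finset.mem_biUnion.2 ⟨l', Finset.mem_univ _, Finset.mem_biUnion.2 ⟨Fr.blk o.1,
      Finset.mem_range.2 (Fr.blk_lt o hoO), Finset.mem_biUnion.2 ⟨c, ?_, ?_⟩⟩⟩
    · unfold ScFrame.choices
      rw [Fintype.mem_piFinset]
      intro i
      by_cases hi : i = l'
      · rw [if_pos hi, hc1 i hi]
        exact Finset.mem_singleton_self _
      · rw [if_neg hi]
        exact sc_mem_allCov Fr (hc2 i hi).2.1
    · rw [hA]
      simp only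
      rw [if_pos ⟨fun i hi => (hl' i hi).1, fun i hi => ⟨(hc2 i hi).1, (hc2 i hi).2.1⟩⟩]
      exact Finset.mem_filter.2 ⟨hoO, rfl, fun i hi => (hc2 i hi).2.2⟩
  have h1 : ∀ l' b, ((((Fr.choices l').biUnion fun c => A l' b c).card : ℕ) : ℝ) ≤
      (Fr.J0 * p.K1 κ) ^ 3 * Kb := by
    intro l' b
    have h2 : ((((Fr.choices l').biUnion fun c => A l' b c).card : ℕ) : ℝ) ≤
        ∑ c ∈ Fr.choices l', ((A l' b c).card : ℝ) := by exact_mod_cast Finset.card_biUnion_le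
    refine h2.trans ((Finset.sum_le_sum fun c _ => hAcard l' b c).trans ?_)
    rw [Finset.sum_const, nsmul_eq_mul]
    exact mul_le_mul_of_nonneg_right (sc_choices_card Fr l') hKb0
  have h3 : ∀ l', ((((range Fr.J0).biUnion fun b => (Fr.choices l').biUnion fun c => A l' b c).card : ℕ) : ℝ) ≤
      Fr.J0 * ((Fr.J0 * p.K1 κ) ^ 3 * Kb) := by
    intro l'
    have h2 : ((((range Fr.J0).biUnion fun b => (Fr.choices l').biUnion fun c => A l' b c).card : ℕ) : ℝ) ≤
        ∑ b ∈ range Fr.J0, ((((Fr.choices l').biUnion fun c => A l' b c).card : ℕ) : ℝ) := by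
      exact_mod_cast Finset.card_biUnion_le
    refine h2.trans ((Finset.sum_le_sum fun b _ => h1 l' b).trans (le_of_eq ?_))
    rw [Finset.sum_const, Finset.card_range, nsmul_eq_mul]
  have h4 : ((O.filter fun o => Fr.fut3 o).card : ℝ) ≤ ∑ l' : Fin 4,
      ((((range Fr.J0).biUnion fun b => (Fr.choices l').biUnion fun c => A l' b c).card : ℕ) : ℝ) := by
    exact_mod_cast (Finset.card_le_card hsub).trans Finset.card_biUnion_le
  refine h4.trans ((Finset.sum_le_sum fun l' _ => h3 l').trans (le_of_eq ?_))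
  rw [Finset.sum_const, Finset.card_univ, Fintype.card_fin, nsmul_eq_mul]
  push_cast
  ring

end Claimed.Agent.R258
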